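import Crest.Agent.X212.Arc9.Slide
import Crest.Agent.X212.Prf6.Lf

/-!
# Row 212, PERF / ARC (helper9): fixing one half of an arc by pushing a foot of the handle
-/

set_option autoImplicit false
set_option linter.unusedSectionVars false
noncomputable section
open Set Filter Topology Function Complex
open scoped ContDiff Manifold

namespace Crest.Agent.X212.Arc9

open Crest.Agent.X212.Prf6

/-- a ray that runs into a closed set -/
theorem closed_ray {X : Type*} [TopologicalSpace X] [T2Space X] [CompactSpace X] {F : Set X}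
    (hF : IsClosed F) {β : ℝ → X} (hβ : Continuous β)
    (h : ∀ O, IsOpen O → F ⊆ O → ∀ᶠ y in atTop, β y ∈ O) (a : ℝ) : IsClosed (F ∪ β '' Ici a) := by
  refine isClosed_of_closure_subset fun x hx => by_contra fun hn => ?_
  obtain ⟨O, N, hO, hN, h1, h2, h3⟩ := normal_separation hF isClosed_singleton
    (disjoint_singleton_right.2 fun h => hn (Or.inl h))
  obtain ⟨R, hR⟩ := eventually_atTop.1 (h O hO h1)
  have h4 : IsClosed (β '' Icc a R) := (isCompact_Icc.image hβ).isClosed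
  obtain ⟨y, ⟨a1, a2⟩, a3⟩ := mem_closure_iff.1 hx (N ∩ (β '' Icc a R)ᶜ) (hN.inter h4.isOpen_compl)
    ⟨h2 rfl, fun ⟨t, ht, e⟩ => hn (Or.inr ⟨t, ht.1, e⟩)⟩
  rcases a3 with a3 | ⟨t, ht, rfl⟩
  · exact disjoint_left.1 h3 (h1 a3) a1
  · rcases le_total t R with h5 | h5
    · exact a2 ⟨t, ⟨ht, h5⟩, rfl⟩
    · exact disjoint_left.1 h3 (hR t h5) a1

theorem conn_ray {X : Type*} [TopologicalSpace X] {F : Set X} (hF : IsPreconnected F) {β : ℝ → X}
    (hβ : Continuous β) (h : ∀ O, IsOpen O → F ⊆ O → ∀ᶠ y in atTop, β y ∈ O) (a : ℝ) :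
    IsPreconnected (F ∪ β '' Ioi a) := by
  obtain ⟨z, h1, h2⟩ : (F ∩ closure (β '' Ioi a)).Nonempty := by
    by_contra hn
    obtain ⟨y, a1, a2⟩ := ((h _ isClosed_closure.isOpen_compl fun z hz hc => hn ⟨z, hz, hc⟩).and
      (eventually_gt_atTop a)).exists
    exact a1 (subset_closure ⟨y, a2, rfl⟩)
  have h3 : IsPreconnected (insert z (β '' Ioi a)) :=
    (isPreconnected_Ioi.image _ hβ.continuousOn).subset_closure (subset_insert _ _)
      (insert_subset h2 subset_closure)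
  have := hF.union z h1 (mem_insert _ _) h3
  rwa [union_insert, insert_eq_of_mem (mem_union_left _ h1)] at this

/-- **one half of the arc** -/
theorem half (hcap : Cap) (hpush : Push) (X : Sf) (htw : TW X.o) {A B : ℂ → X.R} (hA : An X.o A)
    (hn : NS A) (hB : St X.o B) {F : Set X.R} (hF : IsClosed F) (hd : Disjoint F (core A))
    {y0 y1 : ℝ} (hy0 : 0 ≤ y0) (hy1 : 0 < y1) (h1 : ∀ y ∈ Ioc 0 y1, B y = A (y * I))
    (h2 : ∀ y : ℝ, 0 < y → B y ∉ core A ∧ B y ∉ F ∧ ∀ r ∈ Ioc 0 y0, B y ≠ A (-(r * I)))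
    (h3 : ∀ O, IsOpen O → F ⊆ O → ∀ᶠ y : ℝ in atTop, B y ∈ O) {g : Equiv.Perm X.R}
    (hg : g ∈ G X.o) (hN : Near g (core A ∪ (F ∪ (fun r : ℝ => A (-(r * I))) '' Ioc 0 y0))) :
    ∃ k ∈ K X.o, Near (k * g)
      (core A ∪ (F ∪ (fun r : ℝ => A (-(r * I))) '' Ioc 0 y0) ∪ (fun y : ℝ => B y) '' Ioi 0) := by
  obtain ⟨Y, j, D, hD⟩ := hcap X Unit (fun _ => A) (fun _ => hA) fun i k h => (h rfl).elim
  set P := range fun p : Unit × Bool => D p.1 p.2 0 with hP
  have col : Col0 X.o Y.o j (core A) P := by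
    have := hD.col.col0
    rwa [iUnion_const] at this
  obtain ⟨f, hf, hfN, rfl⟩ := col.exists_down hg hN
  have up : ∀ r : ℝ, 0 < r → j (A (r * I)) = D () true r := fun r hr => by
    simpa using hD.up () 0 r hr
  have dn : ∀ r : ℝ, 0 < r → j (A (-(r * I))) = D () false r := fun r hr => by
    simpa using hD.dn () 0 r hr
  have dis := disjoint_left.1 (hD.dis ((), true) ((), false) (by simp))
  have cB : Continuous fun y : ℝ => B y := (cont_of_pm hB.1).comp continuous_ofReal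
  have nA : ∀ r : ℝ, 0 < r → A (-(r * I)) ∉ core A := fun r hr h => by
    have := hA.mem_core.1 h
    simp at this; exact hr.ne' this
  -- the closed sets
  let Fb : ℝ → Set Y.R := fun a => j '' (F ∪ (fun y : ℝ => B y) '' Ici a) ∪
    (fun r : ℝ => D () false r) '' Icc 0 y0
  have Fc : ∀ a, 0 < a → IsClosed (Fb a) := fun a ha => by
    refine (((closed_ray hF cB h3 a).isCompact.image_of_continuousOn (col.cont.mono ?_)).union
      (isCompact_Icc.image ((cont_of_pm (hD.st () false).1).comp continuous_ofReal))).isClosed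
    rintro x (hx | ⟨y, hy, rfl⟩)
    · exact disjoint_left.1 hd hx
    · exact (h2 y (ha.trans_le hy)).1
  have Fn : ∀ a y : ℝ, 0 < y → y < a → j (B y) ∉ Fb a := fun a y hy hya => by
    rintro (⟨x, hx, e⟩ | ⟨r, hr, e⟩)
    · have hx' : x ∉ core A := by
        rcases hx with hx | ⟨y', hy', rfl⟩
        · exact disjoint_left.1 hd hx
        · exact (h2 y' (hy.trans (hya.trans_le hy'))).1
      obtain rfl := col.bij.injOn hx' (h2 y hy).1 e
      rcases hx with hx | ⟨y', hy', e'⟩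
      · exact (h2 y hy).2.1 hx
      · exact not_le.2 hya (ofReal_injective (hB.2 e') ▸ hy')
    · rcases hr.1.eq_or_lt with rfl | h0
      · exact col.j_not (h2 y hy).1 ⟨((), false), e⟩
      · exact (h2 y hy).2.2 r ⟨h0, hr.2⟩
          (col.bij.injOn (h2 y hy).1 (nA r h0) (e.symm.trans (dn r h0).symm))
  have Dj : ∀ y ∈ Ioc 0 y1, D () true y = j (B y) := fun y hy => by rw [h1 y hy, up y hy.1]
  obtain ⟨O, hO, hO1, hO2⟩ := near_iff_open.1 hfN
  obtain ⟨R, hR⟩ := eventually_atTop.1 (((h3 _ (col.cont.isOpen_inter_preimage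
    col.cl.isOpen_compl hO) fun x hx => ⟨disjoint_left.1 hd hx,
      hO1 (Or.inr ⟨x, ⟨Or.inl hx, disjoint_left.1 hd hx⟩, rfl⟩)⟩)).and (eventually_ge_atTop y1))
  have Ry : y1 ≤ R := (hR R le_rfl).2
  obtain ⟨ρ, r1, r2, r3⟩ := slide isOpen_univ (fun z _ => (hD.st () true).1 z)
    (hD.st () true).2.injOn (a := 0) (b' := y1 / 2) (b := y1) (by linarith) (by linarith)
    (fun _ _ => trivial) (Fc y1 hy1) fun t ht => by
      rcases ht.1.eq_or_lt with rfl | h0
      · rintro (⟨x, hx, e⟩ | ⟨r, -, e⟩)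
        · refine col.j_not (x := x) ?_ ⟨((), true), e.symm⟩
          rcases hx with hx | ⟨y', hy', rfl⟩
          · exact disjoint_left.1 hd hx
          · exact (h2 y' (hy1.trans_le hy')).1
        · exact dis ⟨_, rfl⟩ ⟨_, e⟩
      · rw [Dj t ⟨h0, ht.2.le⟩]; exact Fn y1 t h0 ht.2
  obtain ⟨σ, s1, s2, s3⟩ := slide (e := j ∘ B) (Ω := B ⁻¹' (core A)ᶜ)
    (col.cl.isOpen_compl.preimage (cont_of_pm hB.1)) (fun z hz => (col.pos _ hz).comp (hB.1 z))
    (fun z hz w hw e => hB.2 (col.bij.injOn hz hw e)) (a := y1 / 2) (b' := R) (b := R + 1)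
    (by linarith) (by linarith) (fun t ht => (h2 t (by linarith [ht.1])).1) (Fc (R + 1) (by linarith))
    fun t ht => Fn (R + 1) t (by linarith [ht.1]) ht.2
  have sub : Fb (R + 1) ⊆ Fb y1 := union_subset_union_left _
    (image_mono (union_subset_union_right _ (image_mono (Ici_subset_Ici.2 (by linarith)))))
  have hτ := s1.mul r1
  have nτ : NearI (fun t => σ t * ρ t) (Fb (R + 1)) := s2.mul (r2.mono sub)
  have x0 : D () false 0 ∈ Fb (R + 1) := Or.inr ⟨0, ⟨le_rfl, hy0⟩, rfl⟩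
  have k1 : ∀ y : ℝ, y1 / 2 ≤ y → σ 1 (j (B y)) ∈ O := fun y hy => by
    rcases le_total y (R + 1) with h | h
    · obtain ⟨s, a1, a2⟩ := s3 y ⟨hy, h⟩
      rw [show σ 1 (j (B y)) = j (B s) from a2]; exact (hR s a1.1).1.2
    · rw [(s2.near 1).fix (Or.inl ⟨_, Or.inr ⟨y, h, rfl⟩, rfl⟩)]
      exact (hR y (by linarith)).1.2
  have k2 : ∀ y ∈ Icc 0 y1, σ 1 (ρ 1 (D () true y)) ∈ O := fun y hy => by
    obtain ⟨s, a1, a2⟩ := r3 y hy
    rw [a2, Dj s ⟨by linarith [a1.1], a1.2⟩]; exact k1 s a1.1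
  set τ := σ 1 * ρ 1 with hτ1
  have τG : τ ∈ G Y.o := hτ.mem 1
  set S := F ∪ (fun r : ℝ => A (-(r * I))) '' Ioc 0 y0 with hS
  have hh : Near (τ⁻¹ * f * τ) (P ∪ j '' ((S ∪ (fun y : ℝ => B y) '' Ioi 0) \ core A)) := by
    refine near_iff_open.2 ⟨τ ⁻¹' O, hO.preimage (G_cont τG), ?_, fun x hx => ?_⟩
    · rintro x (⟨⟨_, b⟩, rfl⟩ | ⟨x, ⟨hx | ⟨y, hy, rfl⟩, hx'⟩, rfl⟩)
      · cases b
        · rw [mem_preimage, (nτ.near 1).fix x0]; exact hO1 (Or.inl ⟨((), false), rfl⟩)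
        · exact k2 0 ⟨le_rfl, hy1.le⟩
      · have : j x ∈ Fb (R + 1) := by
          rcases hx with hx | ⟨r, hr, rfl⟩
          · exact Or.inl ⟨x, Or.inl hx, rfl⟩
          · exact Or.inr ⟨r, ⟨hr.1.le, hr.2⟩, (dn r hr.1).symm⟩
        rw [mem_preimage, (nτ.near 1).fix this]; exact hO1 (Or.inr ⟨x, ⟨hx, hx'⟩, rfl⟩)
      · rcases le_total y y1 with h | h
        · have := k2 y ⟨le_of_lt hy, h⟩
          rwa [Dj y ⟨hy, h⟩] at this
        · show σ 1 (ρ 1 (j (B y))) ∈ O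
          rw [(r2.near 1).fix (Or.inl ⟨_, Or.inr ⟨y, h, rfl⟩, rfl⟩)]; exact k1 y (by linarith)
    · show τ⁻¹ (f (τ x)) = x
      rw [hO2 _ hx]; simp
  have fP : Near f P := hfN.mono subset_union_left
  have hP' : Near (τ⁻¹ * f * τ) P := hh.mono subset_union_left
  have e1 : f⁻¹ * τ⁻¹ * f⁻¹⁻¹ * τ = f⁻¹ * (τ⁻¹ * f * τ) := by group
  have hk := hpush X Y A j D htw hA hn hD _ ((hτ.inv.conj (inv_mem hf)).mul hτ) (by
    have a1 := nτ.mono (singleton_subset_iff.2 x0)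
    have a2 : Near f {D () false 0} := fP.mono (singleton_subset_iff.2 ⟨((), false), rfl⟩)
    exact ((a2.inv.nearI.mul a1.inv).mul a2.inv.inv.nearI).mul a1) (by
    show Near (f⁻¹ * τ⁻¹ * f⁻¹⁻¹ * τ) _
    rw [e1]
    exact (fP.inv.mul hP').mono (singleton_subset_iff.2 ⟨((), true), rfl⟩))
  refine ⟨_, conj_mem hg hk, ?_⟩
  show Near (lf j (core A) f * lf j (core A) (f⁻¹ * τ⁻¹ * f⁻¹⁻¹ * τ) * (lf j (core A) f)⁻¹ *
    lf j (core A) f) _
  rw [inv_mul_cancel_right, e1, ← col.lf_mul (fun _ => fP.fix) fun _ => (fP.inv.mul hP').fix,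
    mul_inv_cancel_left]
  refine (col.lf_near hh).mono fun x hx => ?_
  by_cases hc : x ∈ core A
  · exact Or.inl hc
  · exact Or.inr ⟨x, ⟨by rw [union_assoc] at hx; exact hx.resolve_left hc, hc⟩, rfl⟩

end Crest.Agent.X212.Arc9
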