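import Crest.Agent.X212.Tub3.Loc
import Crest.Agent.X212.Prf6.Loc
import Crest.Agent.X212.Sard93.Fin

/-!
# Row 212, PERF / ARC (helper9): regular levels of a function on a closed surface are circles
-/

set_option autoImplicit false
set_option linter.unusedSectionVars false
noncomputable section
open Set Filter Topology Function Complex MeasureTheory
open scoped ContDiff Manifold

namespace Crest.Agent.X212.Arc9

open Crest.Agent.X212.Prf6 Crest.Agent.X212.Tub3

variable {M : Type*} [TopologicalSpace M] [ChartedSpace ℂ M] [IsManifold IC ∞ M] [T2Space M]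
  [CompactSpace M]

/-- the differential of a function -/
def dv (η : M → ℝ) (x : M) : ℂ →L[ℝ] ℝ := mfderiv IC IR η x

/-- the differential of a map to the plane -/
def dc (ψ : M → ℂ) (x : M) : ℂ →L[ℝ] ℂ := mfderiv IC IC ψ x

theorem cd_chart {η : M → ℝ} {U : Set M} (hη : ContMDiffOn IC IR ∞ η U) (x : M) :
    ContDiffOn ℝ ∞ (η ∘ (chartAt ℂ x).symm) ((chartAt ℂ x).target ∩ (chartAt ℂ x).symm ⁻¹' U) :=
  contMDiffOn_iff_contDiffOn.1
    (hη.comp ((contMDiffOn_chart_symm (I := IC)).mono inter_subset_left) fun _ h => h.2)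

theorem dv_chart {η : M → ℝ} {U : Set M} (hU : IsOpen U) (hη : ContMDiffOn IC IR ∞ η U) {x y : M}
    (hy : y ∈ (chartAt ℂ x).source) (hyU : y ∈ U) (w : ℂ) :
    dv η y w = fderiv ℝ (η ∘ (chartAt ℂ x).symm) (chartAt ℂ x y) (dc (chartAt ℂ x) y w) := by
  have h1 : η =ᶠ[𝓝 y] (η ∘ (chartAt ℂ x).symm) ∘ chartAt ℂ x := by
    filter_upwards [(chartAt ℂ x).open_source.mem_nhds hy] with z hz
    simp only [comp_apply, (chartAt ℂ x).left_inv hz]
  have h2 : DifferentiableAt ℝ (η ∘ (chartAt ℂ x).symm) (chartAt ℂ x y) :=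
    ((cd_chart hη x).contDiffAt (((chartAt ℂ x).isOpen_inter_preimage_symm hU).mem_nhds
      ⟨(chartAt ℂ x).map_source hy, by rwa [mem_preimage, (chartAt ℂ x).left_inv hy]⟩)).differentiableAt
      (by simp)
  unfold dv dc
  rw [h1.mfderiv_eq, mfderiv_comp y h2.mdifferentiableAt
    ((ld_chart x hy).contMDiffAt.mdifferentiableAt (by simp)), mfderiv_eq_fderiv]
  rfl

/-- small regular values -/
theorem exists_reg {η : M → ℝ} {U : Set M} (hU : IsOpen U) (hη : ContMDiffOn IC IR ∞ η U) {a b : ℝ}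
    (hab : a < b) : ∃ ε ∈ Ioo a b, ∀ y ∈ U, η y = ε → dv η y ≠ 0 := by
  obtain ⟨s, -, hs⟩ := isCompact_univ.elim_nhds_subcover (fun x : M => (chartAt ℂ x).source)
    fun x _ => chart_source_mem_nhds ℂ x
  have h1 : volume (⋃ x ∈ s, (η ∘ (chartAt ℂ x).symm) ''
      {z ∈ (chartAt ℂ x).target ∩ (chartAt ℂ x).symm ⁻¹' U |
        ¬ Surjective (fderiv ℝ (η ∘ (chartAt ℂ x).symm) z)}) = 0 :=
    (measure_biUnion_null_iff s.countable_toSet).2 fun x _ =>
      Sard93.sard volume ((chartAt ℂ x).isOpen_inter_preimage_symm hU) (cd_chart hη x)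
  obtain ⟨ε, h2, h3⟩ := (Measure.dense_of_ae (measure_eq_zero_iff_ae_notMem.1 h1)).exists_mem_open
    isOpen_Ioo (nonempty_Ioo.2 hab)
  refine ⟨ε, h3, fun y hy e h0 => h2 ?_⟩
  obtain ⟨x, hx, h4⟩ := mem_iUnion₂.1 (hs (mem_univ y))
  refine mem_biUnion hx ⟨chartAt ℂ x y, ⟨⟨(chartAt ℂ x).map_source h4,
    by rwa [mem_preimage, (chartAt ℂ x).left_inv h4]⟩, fun h5 => ?_⟩, by
      simp only [comp_apply, (chartAt ℂ x).left_inv h4, e]⟩
  obtain ⟨u, hu⟩ := h5 1
  obtain ⟨w, rfl⟩ := (LinearMap.equivOfDetNeZero (dc (chartAt ℂ x) y).toLinearMap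
    (dt_ne (ld_chart x h4))).surjective u
  have := dv_chart hU hη h4 hy w
  rw [h0] at this
  exact zero_ne_one (this.trans hu)

theorem lin_C (l : ℂ →L[ℝ] ℝ) (w : ℂ) : l w = w.re * l 1 + w.im * l I := by
  conv_lhs => rw [show w = w.re • (1 : ℂ) + w.im • I by simp]
  rw [map_add, map_smul, map_smul]; rfl

theorem lin_C' (l : ℂ →L[ℝ] ℂ) (w : ℂ) : l w = w.re * l 1 + w.im * l I := by
  conv_lhs => rw [show w = w.re • (1 : ℂ) + w.im • I by simp]
  rw [map_add, map_smul, map_smul]; simp

theorem dec_C {v : ℂ} (hv : v ≠ 0) (w : ℂ) : ∃ q : ℂ, w = q.re • v - q.im • (-I * v) :=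
  ⟨w / v, by
    rw [real_smul, real_smul]
    linear_combination (exp := 1) (div_mul_cancel₀ w hv).symm - v * re_add_im (w / v)⟩

/-- a field tangent to the levels, not zero on a regular level -/
theorem exists_ham (o : Or M) {η : M → ℝ} {U : Set M} (hU : IsOpen U) (hc : Continuous η)
    (hη : ContMDiffOn IC IR ∞ η U) {ε : ℝ} (hL : ∀ y, η y = ε → y ∈ U ∧ dv η y ≠ 0) :
    ∃ v : M → ℂ, Flo26.SmV IC v ∧ (∀ y, dv η y (v y) = 0) ∧
      ∀ y, η y = ε → dv η y (-I * v y) ≠ 0 := by
  obtain ⟨v, hv⟩ := exists_contMDiffSection_forall_mem_convex_of_local (n := (⊤ : ℕ∞)) IC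
    (F_fiber := ℂ) (TangentSpace IC : M → Type)
    (fun y => {w : ℂ | dv η y w = 0 ∧ (η y = ε → 0 < o.s y * dv η y (-I * w))})
    (fun y w hw w' hw' a b ha hb hab => by
      refine ⟨?_, fun e => ?_⟩
      · show dv η y (a • (show ℂ from w) + b • (show ℂ from w')) = 0
        rw [map_add, map_smul, map_smul, hw.1, hw'.1]; simp
      · show 0 < o.s y * dv η y (-I * (a • (show ℂ from w) + b • (show ℂ from w')))
        have h1 := hw.2 e
        have h2 := hw'.2 e
        rw [mul_add, mul_smul_comm, mul_smul_comm, map_add, map_smul, map_smul, smul_eq_mul,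
          smul_eq_mul]
        rcases ha.eq_or_lt with h3 | h3
        · rw [← h3] at hab ⊢
          rw [zero_add] at hab
          rw [hab]; simpa using h2
        · nlinarith [mul_pos h3 h1, mul_nonneg hb h2.le])
    (fun x => by
      by_cases hx : η x = ε
      · set ψ := chartAt ℂ x
        set f := η ∘ ψ.symm
        let G : ℂ → ℂ := fun z => (o.s x : ℂ) * (I * fderiv ℝ f z 1 - fderiv ℝ f z I)
        refine ⟨_, inter_mem (inter_mem (chart_source_mem_nhds ℂ x) (hU.mem_nhds (hL x hx).1))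
          (o.loc x), VectorField.mpullback IC IC ψ G, fun y hy => ?_, fun y hy => ?_⟩
        · have h1 : ContDiffAt ℝ ∞ f (ψ y) :=
            (cd_chart hη x).contDiffAt ((ψ.isOpen_inter_preimage_symm hU).mem_nhds
              ⟨ψ.map_source hy.1.1, by rw [mem_preimage, ψ.left_inv hy.1.1]; exact hy.1.2⟩)
          have h2 : ContDiffAt ℝ ∞ (fderiv ℝ f) (ψ y) := h1.fderiv_right (by simp)
          have h3 : ContDiffAt ℝ ∞ G (ψ y) := contDiffAt_const.mul
            ((contDiffAt_const.mul (ofRealCLM.contDiff.contDiffAt.comp _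
              (h2.clm_apply contDiffAt_const))).sub (ofRealCLM.contDiff.contDiffAt.comp _
              (h2.clm_apply contDiffAt_const)))
          refine (ContMDiffAt.mpullback_vectorField_preimage (n := ∞)
            (contMDiffAt_vectorSpace_iff_contDiffAt.2 h3) (ld_chart x hy.1.1).contMDiffAt
            ⟨(ld_chart x hy.1.1).mfderivToContinuousLinearEquiv (by simp), rfl⟩
            (by simp)).contMDiffWithinAt
        · have hi : (mfderiv IC IC ψ y).IsInvertible :=
            ⟨(ld_chart x hy.1.1).mfderivToContinuousLinearEquiv (by simp), rfl⟩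
          set w : ℂ := VectorField.mpullback IC IC ψ G y with hw
          have h1 : dc ψ y w = G (ψ y) := hi.self_apply_inverse _
          have h2 := dv_chart hU hη hy.1.1 hy.1.2
          have h3 : 0 < o.s x * o.s y * (dc ψ y).det := hy.2
          refine ⟨?_, fun e => ?_⟩
          · rw [h2, h1, lin_C]; simp [G]; ring
          · have h4 : w ≠ 0 := fun h0 => (hL y e).2 (by
              rw [h0, map_zero, eq_comm, mul_eq_zero, ofReal_eq_zero] at h1
              have h5 := h1.resolve_left (o.ne x)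
              have a1 : fderiv ℝ f (ψ y) 1 = 0 := by simpa using congrArg im h5
              have a2 : fderiv ℝ f (ψ y) I = 0 := by simpa using congrArg re h5
              ext1 u
              rw [h2, lin_C, a1, a2]; simp)
            have h5 : o.s x * dv η y (-I * w) = (dc ψ y).det * normSq w := by
              have a1 := congrArg re h1
              have a2 := congrArg im h1
              rw [lin_C'] at a1 a2
              rw [h2, lin_C, lin_C', det_C, normSq_apply]
              simp [G] at a1 a2 ⊢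
              linear_combination (w.im * (dc ψ y 1).im - w.re * (dc ψ y I).im) * a1 -
                (w.im * (dc ψ y 1).re - w.re * (dc ψ y I).re) * a2
            have h6 := mul_pos h3 (normSq_pos.2 h4)
            rw [mul_assoc (o.s x * o.s y), ← h5] at h6
            have h7 : 0 < o.s x * o.s x := mul_self_pos.2 (o.ne x)
            refine (pos_iff_pos_of_mul_pos (a := o.s x * o.s x) ?_).1 h7
            linarith
      · exact ⟨_, hc.continuousAt.eventually_ne hx, fun _ => 0,
          (Flo26.SmV.zero (I := IC)).contMDiffOn, fun y hy => ⟨map_zero _, fun e => absurd e hy⟩⟩)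
  exact ⟨v, v.contMDiff, fun y => (hv y).1, fun y e h0 => by
    have := (hv y).2 e
    rw [h0, mul_zero] at this
    exact lt_irrefl _ this⟩

/-- **a regular level is a union of circles** -/
theorem exists_level (o : Or M) {η : M → ℝ} {U : Set M} (hU : IsOpen U) (hc : Continuous η)
    (hη : ContMDiffOn IC IR ∞ η U) {ε : ℝ} (hL : ∀ y, η y = ε → y ∈ U ∧ dv η y ≠ 0) {p : M}
    (hp : η p = ε) : ∃ γ, Cv γ ∧ γ 0 = p ∧ ∀ t, η (γ t) = ε := by
  obtain ⟨v, hv, v0, v1⟩ := exists_ham o hU hc hη hL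
  have cp : Flo26.Cpl (I := IC) v := Flo26.complete_of_compactSpace hv
  set φ : ℝ → M → M := Flo26.fl (I := IC) v with hφ
  have φ0 : ∀ x, φ 0 x = x := Flo26.fl_zero hv
  have φa : ∀ s t x, φ (s + t) x = φ s (φ t x) := cp.add hv
  have φc : ∀ x, Continuous fun t => φ t x := fun x => (cp.curve hv x).continuous
  have vne : ∀ y, η y = ε → v y ≠ 0 := fun y e h0 => v1 y e (by rw [h0, mul_zero, map_zero])
  -- the level is invariant
  have inv : ∀ x, η x = ε → ∀ t, η (φ t x) = ε := fun x hx t => by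
    have h1 : Lev33.LCo univ fun t => η (φ t x) = ε := fun s _ => by
      refine nhdsWithin_le_nhds ?_
      by_cases h : η (φ s x) = ε
      · have h2 : ∀ᶠ u in 𝓝 (0 : ℝ), φ u (φ s x) ∈ U :=
          (φc _).continuousAt.eventually_mem (by rw [φ0]; exact hU.mem_nhds (hL _ h).1)
        obtain ⟨δ, hδ, h3⟩ := Metric.mem_nhds_iff.1 h2
        filter_upwards [Metric.ball_mem_nhds s hδ] with u hu
        have h4 := Flo26.comp_fl_eq hv (cp (u - s, φ s x)) (f := η) (c := 0) fun r hr => ⟨
          (hη.contMDiffAt (hU.mem_nhds (h3 ((convex_ball (0 : ℝ) δ).ordConnected.uIcc_subset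
            (Metric.mem_ball_self hδ) (mem_ball_zero_iff.2 (mem_ball_iff_norm.1 hu)) hr)))
            ).mdifferentiableAt (by simp), v0 _⟩
        have h5 : η (φ u x) = ε := by
          rw [← sub_add_cancel u s, φa, ← h]; simpa using h4
        exact propext (iff_of_true h5 h)
      · filter_upwards [(hc.comp (φc x)).continuousAt.eventually_ne h] with u hu
        exact propext (iff_of_false hu h)
    rw [h1.eq isPreconnected_univ (mem_univ t) (mem_univ 0), φ0]; exact hx
  -- local structure of the level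
  have loc : ∀ x, η x = ε → (∀ᶠ t in 𝓝[≠] (0 : ℝ), φ t x ≠ x) ∧
      ∀ W ∈ 𝓝 (0 : ℝ), ∀ᶠ y in 𝓝 x, η y = ε → ∃ t ∈ W, φ t x = y := fun x hx => by
    set ψ := chartAt ℂ x
    have hs : x ∈ ψ.source := mem_chart_source ℂ x
    have inj : Injective (dc ψ x) := (LinearMap.equivOfDetNeZero (dc ψ x).toLinearMap
      (dt_ne (ld_chart x hs))).injective
    set b := dc ψ x (v x) with hb
    have b0 : b ≠ 0 := fun h0 => vne x hx (inj (by rw [map_zero]; exact h0))
    let l : ℂ →L[ℝ] ℝ := b.re • reCLM + b.im • imCLM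
    have lb : 0 < l b := by simpa [l, normSq_apply] using normSq_pos.2 b0
    have m1 : HasMFDerivAt IC IR (fun y => l (ψ y)) x (l.comp (dc ψ x)) :=
      l.hasFDerivAt.hasMFDerivAt.comp x
        ((ld_chart x hs).contMDiffAt.mdifferentiableAt (by simp)).hasMFDerivAt
    have m2 : HasMFDerivAt IC IR η x (dv η x) :=
      ((hη.contMDiffAt (hU.mem_nhds (hL x hx).1)).mdifferentiableAt (by simp)).hasMFDerivAt
    let Ψ : M → ℂ := fun y => (l (ψ y) : ℂ) + η y * I
    have c1 : ContMDiffOn IC IR ∞ (fun y => l (ψ y)) ψ.source :=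
      l.contDiff.contMDiff.comp_contMDiffOn contMDiffOn_chart
    have c2 : ContDiff ℝ ∞ fun q : ℝ × ℝ => (q.1 : ℂ) + q.2 * I :=
      (ofRealCLM.contDiff.comp contDiff_fst).add
        ((ofRealCLM.contDiff.comp contDiff_snd).mul contDiff_const)
    have c3 : ContMDiffOn IC IC ∞ Ψ (ψ.source ∩ U) := c2.contMDiff.comp_contMDiffOn
      ((c1.mono inter_subset_left).prodMk_space (hη.mono inter_subset_right))
    have c4 := (c3.contMDiffAt ((ψ.open_source.inter hU).mem_nhds ⟨hs, (hL x hx).1⟩)
      ).mdifferentiableAt (by simp)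
    have ld : IsLocalDiffeomorphAt IC IC ∞ Ψ x := by
      refine Glue52.ld_of_injective_mfderiv rfl (ψ.open_source.inter hU) ⟨hs, (hL x hx).1⟩ c3
        ((injective_iff_map_eq_zero _).2 fun w hw => ?_)
      have d1 := reCLM.hasFDerivAt.hasMFDerivAt.comp x c4.hasMFDerivAt
      have d2 := imCLM.hasFDerivAt.hasMFDerivAt.comp x c4.hasMFDerivAt
      have e1 : (reCLM ∘ Ψ) = fun y => l (ψ y) := funext fun y => by simp [Ψ]
      have e2 : (imCLM ∘ Ψ) = η := funext fun y => by simp [Ψ]
      rw [e1] at d1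
      rw [e2] at d2
      have a1 : l (dc ψ x w) = reCLM (dc Ψ x w) :=
        congrArg (fun L : ℂ →L[ℝ] ℝ => L w) (hasMFDerivAt_unique m1 d1)
      have a2 : dv η x w = imCLM (dc Ψ x w) :=
        congrArg (fun L : ℂ →L[ℝ] ℝ => L w) (hasMFDerivAt_unique m2 d2)
      have hw' : dc Ψ x w = 0 := hw
      rw [hw', map_zero] at a1 a2
      obtain ⟨q, rfl⟩ := dec_C (vne x hx) w
      rw [map_sub, map_smul, map_smul, v0, smul_zero, zero_sub, neg_eq_zero, smul_eq_zero] at a2
      rw [a2.resolve_right (v1 x hx), zero_smul, sub_zero, map_smul, map_smul, smul_eq_zero] at a1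
      rw [a1.resolve_right lb.ne', a2.resolve_right (v1 x hx), zero_smul, zero_smul, sub_zero]
      rfl
    have hd : HasDerivAt (fun t => l (ψ (φ t x))) (l b) 0 := by
      have := Flo26.hasDerivAt_comp_fl hv (cp (0, x)) (f := fun y => l (ψ y))
        (by rw [Flo26.fl_zero hv]; exact m1.mdifferentiableAt)
      rw [Flo26.fl_zero hv, m1.mfderiv] at this
      exact this
    refine ⟨?_, fun W hW => ?_⟩
    · filter_upwards [hd.eventually_ne (c := l (ψ x)) lb.ne'] with t ht e
      exact ht (by rw [e])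
    · have c5 : ContDiffAt ℝ ∞ (fun t => l (ψ (φ t x))) 0 := by
        have h1 : ContMDiffAt IR IC ∞ (fun t => φ t x) 0 :=
          (cp.contMDiff hv).comp (f := fun t : ℝ => (t, x)) (contMDiff_id.prodMk contMDiff_const) 0
        exact contMDiffAt_iff_contDiffAt.1 ((c1.contMDiffAt (x := φ 0 x) (by
          rw [φ0]; exact ψ.open_source.mem_nhds hs)).comp (f := fun t => φ t x) 0 h1)
      have h1 := (c5.hasStrictDerivAt' hd (by simp)).map_nhds_eq lb.ne'
      obtain ⟨N, hN, hi⟩ := ld_injOn ld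
      have h2 : (fun t => φ t x) ⁻¹' N ∈ 𝓝 (0 : ℝ) :=
        (φc x).continuousAt.preimage_mem_nhds (by rwa [φ0])
      have h3 := h1 ▸ image_mem_map (m := fun t => l (ψ (φ t x))) (inter_mem hW h2)
      rw [φ0] at h3
      filter_upwards [hN, m1.continuousAt.preimage_mem_nhds h3] with y a1 ⟨t, a2, a3⟩ e
      refine ⟨t, a2.1, hi a2.2 a1 ?_⟩
      simp only [Ψ]
      rw [inv x hx t, e]
      exact congrArg (fun r : ℝ => (r : ℂ) + ε * I) a3
  -- a period
  have neg : ∀ t x, φ (-t) (φ t x) = x := fun t x => by rw [← φa, neg_add_cancel, φ0]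
  have per : ∃ T, T ≠ 0 ∧ φ T p = p := by
    have hO : IsClosed (range fun t => φ t p) := by
      refine isClosed_of_closure_subset fun y hy => ?_
      have e : η y = ε := closure_minimal (s := range fun t => φ t p) (t := {y | η y = ε})
        (by rintro _ ⟨t, rfl⟩; exact inv p hp t) (isClosed_eq hc continuous_const) hy
      obtain ⟨_, h1, t, rfl⟩ := mem_closure_iff_nhds.1 hy _ ((loc y e).2 univ univ_mem)
      obtain ⟨s, -, hs⟩ := h1 (inv p hp t)
      exact ⟨-s + t, by simp only [φa, ← hs, neg]⟩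
    obtain ⟨n, hn⟩ := hO.isCompact.elim_directed_cover
      (fun n : ℕ => interior {y | η y = ε → ∃ t ∈ Ioo (-(n : ℝ)) n, φ t p = y})
      (fun _ => isOpen_interior) (by
        rintro _ ⟨t, rfl⟩
        obtain ⟨n, hn⟩ := exists_nat_gt |t|
        refine mem_iUnion.2 ⟨n, mem_interior_iff_mem_nhds.2 ?_⟩
        have h1 : (fun s => s + t) ⁻¹' Ioo (-(n : ℝ)) n ∈ 𝓝 (0 : ℝ) :=
          (isOpen_Ioo.preimage (by fun_prop)).mem_nhds (by simpa using abs_lt.1 hn)
        filter_upwards [(loc _ (inv p hp t)).2 _ h1] with y hy e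
        obtain ⟨s, h2, h3⟩ := hy e
        exact ⟨s + t, h2, by rw [φa, h3]⟩)
      (Monotone.directed_le fun n m h => interior_mono fun y hy e => by
        obtain ⟨t, h1, h2⟩ := hy e
        have : (n : ℝ) ≤ m := by exact_mod_cast h
        exact ⟨t, ⟨by linarith [h1.1], by linarith [h1.2]⟩, h2⟩)
    obtain ⟨t, h1, h2⟩ := interior_subset (hn ⟨n, rfl⟩) (inv p hp n)
    exact ⟨-t + n, by linarith [h1.2], by rw [φa]; simp only [← h2, neg]⟩
  let S : AddSubgroup ℝ :=
    { carrier := {t | φ t p = p}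
      zero_mem' := φ0 p
      add_mem' := fun {a b} ha hb => by
        show φ (a + b) p = p
        rw [φa, hb, ha]
      neg_mem' := fun {a} ha => by
        show φ (-a) p = p
        conv_lhs => rw [← show φ a p = p from ha]
        exact neg a p }
  obtain ⟨a, ha⟩ := S.dense_or_cyclic.resolve_left fun hd => by
    obtain ⟨W, h1, h2, h3⟩ := mem_nhdsWithin.1 (loc p hp).1
    obtain ⟨t, h4, h5⟩ := hd.exists_mem_open (h1.inter isOpen_compl_singleton)
      (dense_compl_singleton (0 : ℝ) |>.inter_open_nonempty _ h1 ⟨0, h2⟩)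
    exact h3 h5 h4
  have hS : ∀ t, φ t p = p ↔ ∃ n : ℤ, n • a = t := fun t =>
    (show t ∈ S ↔ _ by rw [ha, AddSubgroup.mem_closure_singleton])
  have a0 : a ≠ 0 := fun h0 => by
    obtain ⟨T, h1, h2⟩ := per
    obtain ⟨n, hn⟩ := (hS T).1 h2
    exact h1 (by rw [← hn, h0, smul_zero])
  refine ⟨fun t => φ (t * a) p, ⟨(cp.contMDiff hv).comp (f := fun t : ℝ => (t * a, p))
    ((contDiff_id.mul contDiff_const).contMDiff.prodMk contMDiff_const), fun t => ?_,
    fun s t => ?_⟩, by simp [φ0], fun t => inv p hp _⟩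
  · have h1 := vel_of_has (((cp.curve hv p).comp_mul a) t)
    exact fun h0 => smul_ne_zero a0 (vne _ (inv p hp (t * a))) (h1.symm.trans h0)
  · have h1 : φ (s * a) p = φ (t * a) p ↔ φ (-(s * a) + t * a) p = p := by
      rw [φa]
      exact ⟨fun e => by rw [← e, neg], fun e => by
        conv_lhs => rw [← e]
        rw [← φa, add_neg_cancel, φ0]⟩
    rw [h1, hS]
    exact exists_congr fun n => ⟨fun e => mul_right_cancel₀ a0 (by
      rw [zsmul_eq_mul] at e; linarith), fun e => by rw [e, zsmul_eq_mul]; ring⟩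

end Crest.Agent.X212.Arc9
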