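import Crest.Agent.X212.Arc9.Half
import Crest.Agent.X212.Arc9.Lev

/-!
# Row 212, PERF / ARC (helper9): `ArcS`
-/

set_option autoImplicit false
set_option linter.unusedSectionVars false
noncomputable section
open Set Filter Topology Function Complex
open scoped ContDiff Manifold

namespace Crest.Agent.X212.Arc9

open Crest.Agent.X212.Prf6 Crest.Agent.X212.Tub3

/-- an annulus in `U` whose core crosses the arc once, in normal form -/
structure Dual {M : Type*} [TopologicalSpace M] [ChartedSpace ℂ M] (o : Or M) (U : Set M)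
    (A B : ℂ → M) (s σ δ : ℝ) : Prop where
  an : An o A
  rg : range A ⊆ U
  ne : σ ≠ 0
  pos : 0 < δ
  eq : ∀ y : ℝ, |y| ≤ δ → A (y * I) = B (s + σ * y)
  one : ∀ t : ℝ, B t ∈ core A → t = s

theorem dual_of (htub : Tub) (X : Sf) {U : Set X.R} (hU : IsOpen U) {B : ℂ → X.R} (hB : St X.o B)
    {γ : ℝ → X.R} (hγ : Cv γ) (hr : range γ ⊆ U) {e : ℂ → X.R} (he : Pm oC X.o e 0)
    (h1 : ∀ᶠ u : ℝ in 𝓝 0, e u = γ u) {s σ : ℝ} (hσ : σ ≠ 0)
    (h2 : ∀ᶠ y : ℝ in 𝓝 0, e (y * I) = B (s + σ * y))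
    (h3 : ∀ t, γ t ∈ core B → ∃ n : ℤ, t = n) :
    ∃ A δ, Dual X.o U A B s σ δ ∧ core A = range γ := by
  obtain ⟨A, a1, a2, a3, a4⟩ := htub X γ U 1 (fun _ => 0) (fun _ => e) hγ hU hr
    (fun _ _ _ _ => Subsingleton.elim _ _) (fun _ => he) fun _ => by simpa using h1
  have c : Tendsto (fun y : ℝ => (y * I : ℂ)) (𝓝 0) (𝓝 0) :=
    Continuous.tendsto' (by fun_prop) 0 0 (by simp)
  obtain ⟨δ, hδ, h4⟩ := Metric.nhds_basis_closedBall.mem_iff.1 ((c.eventually (a4 0)).and h2)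
  have e1 : core A = range γ := congrArg range (funext a3)
  refine ⟨A, δ, ⟨a1, a2, hσ, hδ, fun y hy => ?_, fun t ht => ?_⟩, e1⟩
  · have := h4 (mem_closedBall_zero_iff.2 hy)
    rw [← this.2, ← this.1]; simp
  · obtain ⟨u, hu⟩ := e1 ▸ ht
    obtain ⟨n, rfl⟩ := h3 u ⟨t, hu.symm⟩
    have a5 := h1.self_of_nhds
    have a6 := h2.self_of_nhds
    have a7 := hγ.per 0 n
    simp only [ofReal_zero, zero_mul, mul_zero, add_zero, zero_add] at a5 a6 a7
    exact ofReal_injective (hB.2 (by rw [← hu, a7, ← a5, a6]))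

section
variable {M : Type*} [TopologicalSpace M] [ChartedSpace ℂ M] [IsManifold IC ∞ M] [T2Space M]
  {o : Or M} {U : Set M} {A B : ℂ → M} {s σ δ : ℝ}

theorem Dual.off (h : Dual o U A B s σ δ) {y : ℝ} (hy : y ≠ 0) : B (s + σ * y) ∉ core A := fun hc => by
  have := h.one (s + σ * y) (by simpa using hc)
  exact mul_ne_zero h.ne hy (by linarith)

theorem Dual.neg (h : Dual o U A B s σ δ) : Dual o U (fun z => A (-z)) B s (-σ) δ :=
  ⟨h.an.neg, by rintro _ ⟨z, rfl⟩; exact h.rg ⟨_, rfl⟩, neg_ne_zero.2 h.ne, h.pos, fun y hy => by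
    simpa using h.eq (-y) (by rwa [abs_neg]), fun t ht => h.one t (core_neg A ▸ ht)⟩

/-- the two halves of the arc join the two sides -/
theorem Dual.conn (h : Dual o U A B s σ δ) {W T : Set M} (hW : IsOpen W) (hc : IsPreconnected W)
    (hA : core A ⊆ W) (hT : IsPreconnected T) (hTW : T ⊆ W \ core A)
    (hB : ∀ t : ℝ, t ≠ s → B t ∈ T) : IsPreconnected (W \ core A) := by
  have key : ∀ y : ℝ, y ≠ 0 → |y| ≤ δ → A (y * I) ∈ T := fun y hy hy' => by
    rw [h.eq y hy']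
    simpa using hB (s + σ * y) fun e => mul_ne_zero h.ne hy (by linarith)
  refine h.an.conn_diff hW hc hA hT hTW (fun ε hε => ?_) fun ε hε => ?_
  · have a := lt_min h.pos (half_pos hε)
    have b := min_le_right δ (ε / 2)
    exact ⟨(min δ (ε / 2) : ℝ) * I, by simp only [mul_I_im, ofReal_re]; constructor <;> linarith,
      key _ a.ne' (by rw [abs_of_pos a]; exact min_le_left _ _)⟩
  · have a := lt_min h.pos (half_pos hε)
    have b := min_le_right δ (ε / 2)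
    exact ⟨(-min δ (ε / 2) : ℝ) * I, by simp only [mul_I_im, ofReal_re]; constructor <;> linarith,
      key _ (neg_ne_zero.2 a.ne') (by rw [abs_neg, abs_of_pos a]; exact min_le_left _ _)⟩

variable [CompactSpace M] {Z : Set M} {η : M → ℝ}

theorem exists_lt (h : Arc o Z B η) {O : Set M} (hO : IsOpen O) (hZ : Z ⊆ O) :
    ∃ ε > 0, ∀ x, η x < ε → x ∈ O := by
  obtain ⟨ε, h1, h2⟩ := hO.isClosed_compl.isCompact.exists_forall_le' h.cont.continuousOn (a := 0)
    fun x hx => lt_of_le_of_ne (h.nn x) fun e => hx (hZ ((h.zero x).1 e.symm))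
  exact ⟨ε, h1, fun x hx => by_contra fun hn => not_le.2 hx (h2 x hn)⟩

theorem ev_mem (h : Arc o Z B η) (s : ℝ) {σ : ℝ} (hσ : σ ≠ 0) (O : Set M) (hO : IsOpen O)
    (hZ : Z ⊆ O) : ∀ᶠ y : ℝ in atTop, B (s + σ * y) ∈ O := by
  obtain ⟨ε, h1, h2⟩ := exists_lt h hO hZ
  have h3 : Tendsto (fun y : ℝ => s + σ * y) atTop (cocompact ℝ) := by
    rw [cocompact_eq_atBot_atTop]
    rcases hσ.lt_or_gt with h | h
    · exact (tendsto_atBot_add_const_left _ s (tendsto_id.const_mul_atTop_of_neg h)).mono_right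
        le_sup_left
    · exact (tendsto_atTop_add_const_left _ s (tendsto_id.const_mul_atTop h)).mono_right le_sup_right
  filter_upwards [(h.lim.comp h3).eventually (gt_mem_nhds h1)] with y hy
  exact h2 _ (by simpa using hy)

theorem dense_arc (h : Arc o Z B η) : Dense (core B)ᶜ := fun x => by
  by_cases hx : x ∈ core B
  · obtain ⟨t, rfl⟩ := hx
    rw [mem_closure_iff_frequently, ← (h.st.1 t).map_nhds, frequently_map]
    exact (freq_im _).mono fun w hw e => hw (h.st.mem_core.1 e)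
  · exact subset_closure hx

theorem arc_diff (Z S : Set M) : Zᶜ \ S = (Z ∪ S)ᶜ := by rw [compl_union]; rfl

theorem conn_U (h : Arc o Z B η) : IsPreconnected Zᶜ :=
  conn_of_dense h.cl.isOpen_compl (dense_arc h) (arc_diff Z _ ▸ h.cc)

theorem conn_T (h : Arc o Z B η) (s : ℝ) : ∃ T, IsPreconnected T ∧ Z ⊆ T ∧
    (∀ t : ℝ, t ≠ s → B t ∈ T) ∧ ∀ x ∈ T, x ∈ Z ∨ ∃ t : ℝ, t ≠ s ∧ x = B t := by
  have c : ∀ σ : ℝ, Continuous fun y : ℝ => B (s + σ * y) := fun σ =>
    (cont_of_pm h.st.1).comp (by fun_prop)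
  refine ⟨_, conn_ray (conn_ray h.conn (c 1) (ev_mem h s one_ne_zero) 0) (c (-1))
    (fun O hO hZ => ev_mem h s (by simp) O hO (subset_union_left.trans hZ)) 0,
    subset_union_left.trans subset_union_left, fun t ht => ?_, ?_⟩
  · rcases ht.lt_or_gt with a | a
    · exact Or.inr ⟨s - t, sub_pos.2 a, by simp⟩
    · exact Or.inl (Or.inr ⟨t - s, sub_pos.2 a, by simp⟩)
  · rintro x ((hx | ⟨y, hy, rfl⟩) | ⟨y, hy, rfl⟩)
    · exact Or.inl hx
    · exact Or.inr ⟨s + y, fun e => by have : (0 : ℝ) < y := hy; linarith, by simp⟩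
    · exact Or.inr ⟨s - y, fun e => by have : (0 : ℝ) < y := hy; linarith, by simp [sub_eq_add_neg]⟩

theorem conn_univ (h : Arc o Z B η) : IsPreconnected (univ : Set M) := by
  obtain ⟨T, h1, h2, h3, -⟩ := conn_T h 0
  have := h1.union (B (1 : ℝ)) (h3 1 one_ne_zero) (h.off _) (conn_U h)
  rwa [eq_univ_of_subset (union_subset_union_left _ h2) (union_compl_self Z)] at this

theorem Dual.ns (hd : Dual o Zᶜ A B s σ δ) (h : Arc o Z B η) : NS A := by
  obtain ⟨T, h1, -, h3, h4⟩ := conn_T h s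
  unfold NS
  rw [compl_eq_univ_sdiff]
  refine hd.conn isOpen_univ (conn_univ h) (subset_univ _) h1 (fun x hx => ⟨trivial, fun hc => ?_⟩) h3
  rcases h4 x hx with a | ⟨t, a, rfl⟩
  · exact hd.rg (core_subset A hc) a
  · exact a (hd.one t hc)

end

/-- the dual curve -/
theorem exists_dual (harx : Arcx) (htub : Tub) (X : Sf) {Z : Set X.R} {B : ℂ → X.R} {η : X.R → ℝ}
    (h : Arc X.o Z B η) {O : Set X.R} (hO : IsOpen O) (hZ : Z ⊆ O) :
    ∃ A s σ δ, Dual X.o Zᶜ A B s σ δ ∧ (core A ⊆ O ∨ IsPreconnected (Zᶜ \ core A)) := by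
  have hU := h.cl.isOpen_compl
  have cB : Continuous fun t : ℝ => B t := (cont_of_pm h.st.1).comp continuous_ofReal
  obtain ⟨γ0, g1, g2, g3, c, hc, g4⟩ := harx X Zᶜ (core B) B hU (arc_diff Z _ ▸ h.cl'.isOpen_compl)
    (arc_diff Z _ ▸ h.cc) (h.st.1 0) (h.off 0) (Eventually.of_forall fun z => h.st.mem_core)
  obtain ⟨A0, δ0, d0, -⟩ := dual_of htub X hU h.st g1 g2 (e := fun z => B (0 + c * I * z))
    ((h.st.affine (mul_ne_zero (ofReal_ne_zero.2 hc.ne') I_ne_zero) 0).1 0)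
    (g4.mono fun u hu => by rw [hu]; congr 1; ring) (s := 0) (σ := -c) (neg_ne_zero.2 hc.ne')
    (Eventually.of_forall fun y => by
      congr 1; push_cast; linear_combination c * y * I_mul_I) g3
  obtain ⟨T0, hT0⟩ := h.mono
  set T := max T0 1 with hT
  have T1 : (1 : ℝ) ≤ T := le_max_right _ _
  have hm : ∀ t, T ≤ t → deriv (fun s : ℝ => η (B s)) t < 0 := fun t ht => by
    have := hT0 t ((le_max_left _ _).trans (ht.trans (le_abs_self t)))
    exact (neg_iff_neg_of_mul_pos (a := -t) (by linarith)).1 (by linarith)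
  have ch : Continuous fun s : ℝ => η (B s) := h.cont.comp cB
  have anti : StrictAntiOn (fun s : ℝ => η (B s)) (Ici T) :=
    strictAntiOn_of_deriv_neg (convex_Ici T) ch.continuousOn fun t ht => hm t (interior_subset ht)
  have c1 : IsClosed (core A0 ∪ (fun t : ℝ => B t) '' Icc (-T) T) :=
    d0.an.isCompact_core.isClosed.union (isCompact_Icc.image cB).isClosed
  obtain ⟨ε0, e0, e1⟩ := exists_lt h (hO.inter c1.isOpen_compl) fun x hx => ⟨hZ hx, by
    rintro (a | ⟨t, -, rfl⟩)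
    · exact d0.rg (core_subset _ a) hx
    · exact h.off _ hx⟩
  obtain ⟨ε, ⟨e2, e3⟩, e4⟩ := exists_reg hU h.sm e0
  have nZ : ∀ y, η y = ε → y ∈ Zᶜ := fun y e hy => e2.ne' (e ▸ (h.zero y).2 hy)
  have big : ∀ t : ℝ, η (B t) = ε → T < |t| := fun t e => not_le.1 fun a =>
    (e1 _ (e ▸ e3)).2 (Or.inr ⟨t, abs_le.1 a, rfl⟩)
  obtain ⟨s, hs, es⟩ : ∃ s, T ≤ s ∧ η (B s) = ε := by
    have a1 : Tendsto (fun s : ℝ => η (B s)) atTop (𝓝 0) :=
      h.lim.mono_left (by rw [cocompact_eq_atBot_atTop]; exact le_sup_right)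
    obtain ⟨R, a2, a3⟩ := ((a1.eventually (gt_mem_nhds e2)).and (eventually_ge_atTop T)).exists
    have a4 : ε ≤ η (B T) := e3.le.trans (not_lt.1 fun a =>
      (e1 _ a).2 (Or.inr ⟨T, ⟨by linarith, le_rfl⟩, rfl⟩))
    obtain ⟨s, a5, a6⟩ := intermediate_value_Icc' a3 ch.continuousOn ⟨a2.le, a4⟩
    exact ⟨s, a5.1, a6⟩
  obtain ⟨γ, k1, k2, k3⟩ := exists_level X.o hU h.cont h.sm (fun y e => ⟨nZ y e, e4 y (nZ y e) e⟩) es
  by_cases hcase : ∀ t, γ t ∈ core B → ∃ n : ℤ, t = n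
  · obtain ⟨g, W, w1, w2, w3, w4, w5, w6⟩ := exists_lift (h.st.1 s).1 k1.sm k2
    have dg := ((w3.contDiffAt (w1.mem_nhds w2)).differentiableAt (by simp)).hasDerivAt
    have dF : DifferentiableAt ℝ (η ∘ B) s := (contMDiffAt_iff_contDiffAt.1
      ((h.sm.contMDiffAt (hU.mem_nhds (h.off s))).comp _ (h.st.1 s).1.contMDiffAt)).differentiableAt
      (by simp)
    have a1 : fderiv ℝ (η ∘ B) s (deriv g 0) = 0 := by
      have b1 := (w4 ▸ dF).hasFDerivAt.comp_hasDerivAt 0 dg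
      have b2 : HasDerivAt ((η ∘ B) ∘ g) 0 0 := (hasDerivAt_const 0 ε).congr_of_eventuallyEq
        (eventually_of_mem (w1.mem_nhds w2) fun u hu => by
          show η (B (g u)) = ε
          rw [← w5 u hu, k3])
      rw [← w4]; exact b1.unique b2
    have a2 : fderiv ℝ (η ∘ B) s 1 < 0 := by
      have b1 := dF.hasFDerivAt.comp_hasDerivAt s (ofRealCLM.hasDerivAt (x := s))
      have := hm s hs
      rwa [show deriv (fun s : ℝ => η (B s)) s = _ from b1.deriv] at this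
    have a3 : (deriv g 0).im ≠ 0 := fun b => by
      rw [lin_C, b, zero_mul, add_zero, mul_eq_zero] at a1
      have : deriv g 0 = 0 := Complex.ext (a1.resolve_right a2.ne) b
      exact k1.imm 0 (by rw [this, map_zero] at w6; exact w6)
    have hb : HasDerivAt (fun r : ℝ => ((-(deriv g 0).im * r : ℝ) : ℂ)) (-(deriv g 0).im : ℝ)
        (0 : ℂ).im := by
      simpa using ((hasDerivAt_id (0 : ℝ)).const_mul (-(deriv g 0).im)).ofReal_comp
    have hk := pm_pl (b := fun r : ℝ => ((-(deriv g 0).im * r : ℝ) : ℂ)) w1 isOpen_univ w3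
      (ofRealCLM.contDiff.comp (contDiff_const.mul contDiff_id)).contDiffOn (z := 0) w2 trivial (by
        rw [hb.deriv]
        simpa [dd] using mul_self_pos.2 a3)
    obtain ⟨A, δ, d1, d2⟩ := dual_of htub X hU h.st k1 (by rintro _ ⟨t, rfl⟩; exact nZ _ (k3 t))
      (Pm.comp (h.st.1 _) hk) (eventually_of_mem (w1.mem_nhds w2) fun u hu => by simp [w5 u hu])
      (s := s) (neg_ne_zero.2 a3) (Eventually.of_forall fun y => by simp [w4]) hcase
    refine ⟨A, _, _, δ, d1, Or.inl ?_⟩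
    rw [d2]
    rintro _ ⟨t, rfl⟩
    exact (e1 _ (k3 t ▸ e3)).1
  · push Not at hcase
    obtain ⟨t, ⟨s', hs'⟩, ht⟩ := hcase
    have b1 : η (B s') = ε := by rw [show B s' = γ t from hs', k3]
    have b2 : s' < 0 := by
      by_contra b
      have b3 := big s' b1
      rw [abs_of_nonneg (not_lt.1 b)] at b3
      obtain rfl : s' = s := anti.injOn b3.le hs (b1.trans es.symm)
      obtain ⟨n, hn⟩ := (k1.inj 0 t).1 (k2.trans hs')
      exact ht n (by simpa using hn)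
    have b3 : ∀ u : ℝ, u ≠ 0 → B u ∈ Zᶜ \ core A0 := fun u hu => ⟨h.off _, fun a => hu (d0.one u a)⟩
    refine ⟨A0, _, _, δ0, d0, Or.inr (d0.conn hU (conn_U h) ((core_subset _).trans d0.rg)
      (T := ((fun u : ℝ => B u) '' Ioi 0 ∪ range γ) ∪ (fun u : ℝ => B u) '' Iio 0)
      (((isPreconnected_Ioi.image _ cB.continuousOn).union (B s)
        (mem_image_of_mem (fun u : ℝ => B u) (show s ∈ Ioi 0 from show 0 < s by linarith)) (show B s ∈ range γ from ⟨0, k2⟩)
        (isPreconnected_range k1.sm.continuous)).union (B s')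
        (Or.inr (show B s' ∈ range γ from ⟨t, hs'.symm⟩))
        (mem_image_of_mem (fun u : ℝ => B u) (show s' ∈ Iio 0 from b2))
        (isPreconnected_Iio.image _ cB.continuousOn)) ?_
      fun u hu => hu.lt_or_gt.elim (fun a => Or.inr ⟨u, a, rfl⟩) fun a => Or.inl (Or.inl ⟨u, a, rfl⟩))⟩
    rintro _ ((⟨u, hu, rfl⟩ | ⟨u, rfl⟩) | ⟨u, hu, rfl⟩)
    · exact b3 u (ne_of_gt hu)
    · exact ⟨nZ _ (k3 u), fun a => (e1 _ (k3 u ▸ e3)).2 (Or.inl a)⟩
    · exact b3 u (ne_of_lt hu)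

/-- reversing a non-separating curve -/
theorem exists_rev (harx : Arcx) (hnf : Nf1) (hpl : Plumb) (X : Sf) (htw : TW X.o)
    (hX : IsPreconnected (univ : Set X.R)) {U : Set X.R} (hU : IsOpen U) {A : ℂ → X.R}
    (hA : An X.o A) (hAU : core A ⊆ U) (hc : IsPreconnected (U \ core A)) :
    ∃ A', An X.o A' ∧ core A' = core A ∧ ∃ r ∈ K X.o, Near r Uᶜ ∧
      ∃ δ > (0 : ℝ), ∀ z : ℂ, |z.im| < δ → r (A' (-z)) = A' z := by
  obtain ⟨γ, g1, g2, g3, c, hc, g4⟩ := harx X U (core A) A hU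
    (hU.sdiff hA.isCompact_core.isClosed) hc (hA.1 0) (hAU (mem_core rfl))
    (Eventually.of_forall fun z => hA.mem_core)
  have hd : HasDerivAt (fun t : ℝ => (c * t * I : ℂ)) (c * I) 0 := by
    simpa using ((ofRealCLM.hasDerivAt (x := (0 : ℝ))).const_mul (c : ℂ)).mul_const I
  obtain ⟨A', B', δ, θ, ε, hN, a1, -⟩ := hnf X U A γ 1 (fun _ => 0) hU hA hAU g1 g2
    (fun _ _ _ _ => Subsingleton.elim _ _) (fun _ => ⟨fun t : ℝ => c * t * I,
      ((contDiff_const.mul ofRealCLM.contDiff).mul contDiff_const).contDiffAt, g4, by simp,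
      by rw [hd.deriv]; simpa using hc.ne'⟩) fun s hs => ⟨0, by simpa using g3 s hs⟩
  have e0 : ε 0 ≠ 0 := by rcases hN.sgn 0 with e | e <;> simp [e]
  have e1 : ∀ z : ℂ, |(θ 0 + ε 0 * z).im| = |z.im| := fun z => by
    rcases hN.sgn 0 with e | e <;> simp [e]
  obtain ⟨k, k1, k2, k3, δ', hδ', k4⟩ := hpl X U (fun z => A' (θ 0 + ε 0 * z)) B' δ hX
    ⟨hN.hA.affine _ (hN.sgn 0), hN.hB, by rintro _ ⟨z, rfl⟩; exact hN.rA ⟨_, rfl⟩, hN.rB, hN.pos,
      fun _ => Or.inl rfl, fun _ z b1 b2 => by simpa [mul_assoc] using hN.box 0 z b1 b2,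
      fun z w b1 b2 e => hN.only _ w (by rwa [e1]) b2 e, hN.sept, fun i j m b => by
        obtain rfl := Subsingleton.elim i j
        exact hN.sepθ i i m (by simpa using b)⟩
  refine ⟨fun z => A' (θ 0 + ε 0 * z), hN.hA.affine (θ 0) (hN.sgn 0),
    (core_affine A' (θ 0) e0).trans (core_congr a1), k * k,
    mul_mem (k3 htw) (k3 htw), k2.mul k2, δ', hδ', fun z hz => ?_⟩
  have b := k4 (-z) (by simpa using hz)
  rw [Equiv.Perm.mul_apply, b.1, b.2, neg_neg]

/-- fixing a non-separating curve -/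
theorem fix_curve (harx : Arcx) (hnf : Nf1) (hpl : Plumb) (hlk : Lk) (hco : Coll) (X : Sf)
    (htw : TW X.o) (hX : IsPreconnected (univ : Set X.R)) {U : Set X.R} (hU : IsOpen U)
    {A : ℂ → X.R} (hA : An X.o A) (hAU : core A ⊆ U) (hc : IsPreconnected (U \ core A))
    {g : Equiv.Perm X.R} (hg : g ∈ G X.o) (hN : Near g Uᶜ) :
    ∃ k ∈ K X.o, Near (k * g) (core A ∪ Uᶜ) := by
  obtain ⟨A', a1, a2, r, r1, r2, δ, hδ, r3⟩ := exists_rev harx hnf hpl X htw hX hU hA hAU hc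
  rw [← a2] at hAU hc ⊢
  have gU := mem_iff_of_fix (f := g) (U := U) fun x hx => hN.fix hx
  have e1 : U \ core (g ∘ A') = g '' (U \ core A') := by
    rw [core_comp, image_sdiff g.injective]
    congr 1
    exact Subset.antisymm (fun x hx => ⟨g⁻¹ x, (gU _).1 (by simpa using hx), by simp⟩)
      (by rintro _ ⟨x, hx, rfl⟩; exact (gU x).2 hx)
  obtain ⟨k, k1, k2, k3, k4⟩ := hlk X U (g ∘ A') A' hX hU (a1.comp hg) a1
    (by rw [core_comp]; rintro _ ⟨x, hx, rfl⟩; exact (gU x).2 (hAU hx)) hAU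
    (e1 ▸ hc.image _ (G_cont hg).continuousOn) hc
  have e2 : core (k ∘ (g ∘ A')) = core A' := by rw [core_comp, k3]
  obtain ⟨φ, p1, p2, ε, hε, δ', hδ', p3⟩ := hco X _ A' U ((a1.comp hg).comp k1) a1 e2 hU (e2 ▸ hAU)
  have key : ∀ f : Equiv.Perm X.R, (∀ z : ℂ, |z.im| < min δ δ' → f (A' z) = A' z) →
      Near f (core A') := fun f hf => near_iff_open.2 ⟨A' '' {z | |z.im| < min δ δ'},
    isOpenMap_of_pm a1.1 _ (isOpen_lt (by fun_prop) continuous_const),
    by rintro _ ⟨t, rfl⟩; exact ⟨t, by simp [hδ, hδ'], rfl⟩, by rintro _ ⟨z, hz, rfl⟩; exact hf z hz⟩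
  rcases hε with rfl | rfl
  · refine ⟨φ 1 * k, mul_mem p1.one_mem (k4 htw), (key _ fun z hz => ?_).union
      (((p2.near 1).mul k2).mul hN)⟩
    simpa using p3 z (hz.trans_le (min_le_right _ _))
  · refine ⟨r * φ 1 * k, mul_mem (mul_mem r1 p1.one_mem) (k4 htw), (key _ fun z hz => ?_).union
      (((r2.mul (p2.near 1)).mul k2).mul hN)⟩
    have := p3 z (hz.trans_le (min_le_right _ _))
    simp only [comp_apply, ofReal_neg, ofReal_one, neg_mul, one_mul] at this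
    simp only [Equiv.Perm.mul_apply, this]
    exact r3 z (hz.trans_le (min_le_left _ _))

/-- **ARC** -/
theorem arcS (harx : Arcx) (htub : Tub) (hnf : Nf1) (hpl : Plumb) (hlk : Lk) (hco : Coll)
    (hcap : Cap) (hpush : Push) : ArcS := by
  intro X Z B η htw h g hg hN
  obtain ⟨O, hO, hZ, hgO⟩ := near_iff_open.1 hN
  obtain ⟨A, s, σ, δ, d, hd⟩ := exists_dual harx htub X h hO hZ
  have cU : core A ⊆ Zᶜ := (core_subset _).trans d.rg
  obtain ⟨k, k1, k2⟩ : ∃ k ∈ K X.o, Near (k * g) (core A ∪ Z) := by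
    rcases hd with hd | hd
    · exact ⟨1, one_mem _, near_iff_open.2 ⟨O, hO, union_subset hd hZ, hgO⟩⟩
    · simpa using fix_curve harx hnf hpl hlk hco X htw (conn_univ h) h.cl.isOpen_compl d.an cU hd hg
        (by rwa [compl_compl])
  have s0 : (σ : ℂ) ≠ 0 := ofReal_ne_zero.2 d.ne
  have e1 : ∀ y ∈ Ioc 0 δ, B (s + σ * y) = A (y * I) := fun y hy =>
    (d.eq y (by rw [abs_of_pos hy.1]; exact hy.2)).symm
  obtain ⟨k', l1, l2⟩ := half hcap hpush X htw d.an (d.ns h) (h.st.affine s0 s) h.cl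
    (disjoint_right.2 cU) le_rfl d.pos e1
    (fun y hy => ⟨d.off hy.ne', h.off _, fun r hr => absurd hr.1 (not_lt.2 hr.2)⟩)
    (ev_mem h s d.ne) (mul_mem (K_le k1) hg) (by simpa using k2)
  have cB : Continuous fun y : ℝ => B (s + σ * y) := (cont_of_pm h.st.1).comp (by fun_prop)
  have ne : ∀ y r : ℝ, 0 < y → 0 < r → B (s + (-σ : ℝ) * y) ≠ B (s + σ * r) := fun y r hy hr e => by
    have a1 : s + -σ * y = s + σ * r := by exact_mod_cast h.st.2 e
    exact mul_ne_zero d.ne (add_pos hy hr).ne' (by linarith)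
  obtain ⟨k'', m1, m2⟩ := half hcap hpush X htw d.neg.an (d.neg.ns h)
    (h.st.affine (ofReal_ne_zero.2 d.neg.ne) s) (closed_ray h.cl cB (ev_mem h s d.ne) δ)
    (by
      rw [core_neg, disjoint_left]
      rintro _ (hx | ⟨y, hy, rfl⟩)
      · exact fun a => cU a hx
      · exact d.off (d.pos.trans_le hy).ne') d.pos.le d.pos
    (fun y hy => (d.neg.eq y (by rw [abs_of_pos hy.1]; exact hy.2)).symm)
    (fun y hy => ⟨d.neg.off hy.ne', by
      rintro (a | ⟨r, hr, a⟩)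
      · exact h.off _ a
      · exact ne y r hy (d.pos.trans_le hr) a.symm, fun r hr => by
      rw [neg_neg, ← e1 r hr]; exact ne y r hy hr.1⟩)
    (fun O hO hZ => ev_mem h s d.neg.ne O hO (subset_union_left.trans hZ))
    (mul_mem (K_le l1) (mul_mem (K_le k1) hg)) (l2.mono (by
      rw [core_neg]
      rintro x (hx | (hx | ⟨y, hy, rfl⟩) | ⟨r, hr, rfl⟩)
      · exact Or.inl (Or.inl hx)
      · exact Or.inl (Or.inr (Or.inl hx))
      · exact Or.inr ⟨y, d.pos.trans_le hy, rfl⟩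
      · exact Or.inr ⟨r, hr.1, by simp only [neg_neg]; exact e1 r hr⟩))
  refine ⟨k'' * k' * k, mul_mem (mul_mem m1 l1) k1, ?_⟩
  rw [mul_assoc, mul_assoc]
  refine m2.mono ?_
  rintro x (hx | ⟨t, rfl⟩)
  · exact Or.inl (Or.inr (Or.inl (Or.inl hx)))
  · obtain ⟨y, rfl⟩ : ∃ y : ℝ, t = s + σ * y := ⟨(t - s) / σ, by field_simp [d.ne]; ring⟩
    rcases lt_trichotomy y 0 with hy | rfl | hy
    · exact Or.inr ⟨-y, neg_pos.2 hy, by simp⟩
    · refine Or.inl (Or.inl ?_)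
      rw [core_neg]
      exact ⟨0, by simpa using d.eq 0 (by simpa using d.pos.le)⟩
    · rcases le_total y δ with a | a
      · exact Or.inl (Or.inr (Or.inr ⟨y, ⟨hy, a⟩, by simpa using (e1 y ⟨hy, a⟩).symm⟩))
      · exact Or.inl (Or.inr (Or.inl (Or.inr ⟨y, a, by simp⟩)))

end Crest.Agent.X212.Arc9
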