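import Crest.Agent.X212.Prf6.Tr

/-!
# Row 212, PERF / ARC (helper9): squeezing a partial chart, sliding along a segment
-/

set_option autoImplicit false
set_option linter.unusedSectionVars false
noncomputable section
open Set Filter Topology Function Complex
open scoped ContDiff Manifold

namespace Crest.Agent.X212.Arc9

open Crest.Agent.X212.Prf6

/-- a product map of the plane is positive -/
theorem pm_diag {f g : ℝ → ℝ} (hf : ContDiff ℝ ∞ f) (hg : ContDiff ℝ ∞ g) {z : ℂ}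
    (h : 0 < deriv f z.re * deriv g z.im) :
    Pm oC oC (fun w : ℂ => (f w.re : ℂ) + g w.im * I) z := by
  refine pm_C isOpen_univ (mem_univ z) (ContDiff.contDiffOn ?_) ?_
  · exact (ofRealCLM.contDiff.comp (hf.comp reCLM.contDiff)).add
      ((ofRealCLM.contDiff.comp (hg.comp imCLM.contDiff)).mul contDiff_const)
  · have h1 := (hf.differentiable (by simp) z.re).hasDerivAt.comp_hasFDerivAt z reCLM.hasFDerivAt
    have h2 := (hg.differentiable (by simp) z.im).hasDerivAt.comp_hasFDerivAt z imCLM.hasFDerivAt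
    have h3 := (ofRealCLM.hasFDerivAt.comp z h1).add
      ((ofRealCLM.hasFDerivAt.comp z h2).mul_const' I)
    have h4 : HasFDerivAt (fun w : ℂ => (f w.re : ℂ) + g w.im * I) _ z := h3
    rw [h4.fderiv, det_C]
    simpa using h

/-- the squeeze of the plane onto a box -/
def sq (m R δ : ℝ) (z : ℂ) : ℂ := (m + R * Real.arctan z.re : ℝ) + (δ * Real.arctan z.im : ℝ) * I

theorem sq_re (m R δ : ℝ) (z : ℂ) : (sq m R δ z).re = m + R * Real.arctan z.re := by
  simp [sq, -ofReal_arctan]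

theorem sq_im (m R δ : ℝ) (z : ℂ) : (sq m R δ z).im = δ * Real.arctan z.im := by
  simp [sq, -ofReal_arctan]

theorem sq_real (m R δ x : ℝ) : sq m R δ x = (m + R * Real.arctan x : ℝ) := by simp [sq]

theorem st_sq (m : ℝ) {R δ : ℝ} (hR : 0 < R) (hδ : 0 < δ) : St oC (sq m R δ) := by
  refine ⟨fun z => pm_diag (f := fun x => m + R * Real.arctan x) (g := fun x => δ * Real.arctan x)
    (contDiff_const.add (contDiff_const.mul Real.contDiff_arctan))
    (contDiff_const.mul Real.contDiff_arctan) ?_, fun z w h => ?_⟩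
  · rw [(((Real.hasDerivAt_arctan z.re).const_mul R).const_add m).deriv,
      ((Real.hasDerivAt_arctan z.im).const_mul δ).deriv]
    positivity
  · have h1 := congrArg re h
    have h2 := congrArg im h
    rw [sq_re, sq_re, add_right_inj, mul_right_inj' hR.ne'] at h1
    rw [sq_im, sq_im, mul_right_inj' hδ.ne'] at h2
    exact Complex.ext (Real.arctan_injective h1) (Real.arctan_injective h2)

theorem abs_arctan_lt (x : ℝ) : |Real.arctan x| < Real.pi / 2 :=
  abs_lt.2 ⟨Real.neg_pi_div_two_lt_arctan x, Real.arctan_lt_pi_div_two x⟩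

/-- a partial chart gives a plane chart onto any box in its domain -/
theorem exists_sq {a b δ : ℝ} (hab : a < b) (hδ : 0 < δ) : ∃ κ : ℂ → ℂ, St oC κ ∧
    (∀ z, (κ z).re ∈ Ioo a b ∧ |(κ z).im| < δ) ∧ ∃ α : ℝ → ℝ, StrictMono α ∧ (∀ x : ℝ, κ x = α x) ∧
      ∀ t ∈ Ioo a b, ∃ x, α x = t := by
  have hp := Real.pi_pos
  have hR : 0 < (b - a) / Real.pi := div_pos (by linarith) hp
  have e : (b - a) / Real.pi * (Real.pi / 2) = (b - a) / 2 := by field_simp
  refine ⟨sq ((a + b) / 2) ((b - a) / Real.pi) (δ * 2 / Real.pi), st_sq _ hR (by positivity),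
    fun z => ⟨?_, ?_⟩, fun x => (a + b) / 2 + (b - a) / Real.pi * Real.arctan x,
    fun x y h => ?_, fun x => sq_real _ _ _ _, fun t ht => ⟨Real.tan ((t - (a + b) / 2) /
      ((b - a) / Real.pi)), ?_⟩⟩
  · rw [sq_re]
    have h := abs_lt.1 (abs_arctan_lt z.re)
    constructor <;> nlinarith [h.1, h.2]
  · rw [sq_im, abs_mul, abs_of_pos (by positivity)]
    calc _ < δ * 2 / Real.pi * (Real.pi / 2) := mul_lt_mul_of_pos_left (abs_arctan_lt _) (by positivity)
      _ = δ := by field_simp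
  · have := Real.arctan_strictMono h
    show _ + _ < _ + _
    nlinarith
  · show _ + _ * Real.arctan _ = t
    rw [Real.arctan_tan]
    · rw [mul_div_cancel₀ _ hR.ne']; ring
    · rw [lt_div_iff₀ hR]; nlinarith [ht.1]
    · rw [div_lt_iff₀ hR]; nlinarith [ht.2]

/-- translation along the real axis, cut off -/
theorem exists_shift (a b : ℝ) : ∃ κ, Iso oC κ ∧ (∃ L, IsCompact L ∧ ∀ t, ∀ z ∉ L, κ t z = z) ∧
    ∀ x : ℝ, a ≤ x → ∃ y : ℝ, b ≤ y ∧ κ 1 x = y := by
  let χ : ContDiffBump (0 : ℂ) := ⟨2 * (|a| + |b|) + 1, 2 * (|a| + |b|) + 2, by positivity, by linarith⟩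
  set T := |a| + |b| with hT
  let v : (x : ℂ) → TangentSpace IC x := fun z => ((χ z : ℝ) : ℂ)
  have hv : Flo26.SmV IC v := Flo26.smV_model.2 (ofRealCLM.contDiff.comp χ.contDiff)
  have h0 : ∀ z ∉ Metric.closedBall (0 : ℂ) χ.rOut, v z = 0 := fun z hz => by
    have : χ z = 0 := χ.zero_of_le_dist (not_le.1 hz).le
    show ((χ z : ℝ) : ℂ) = 0
    rw [this, ofReal_zero]
  have hc : Flo26.Cpl v := Flo26.complete_of_compact hv (isCompact_closedBall _ _) h0
  refine ⟨fun t => flP hv hc (t * T), (iso_flP hv hc).reparam (by fun_prop) (by simp),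
    ⟨_, isCompact_closedBall _ _, fun t z hz => (Flo26.fl_of_zero hv (h0 z hz) _).2⟩, fun x hx => ?_⟩
  simp only [one_mul, flP_apply]
  by_cases hb : x ≤ b
  · refine ⟨x + T, by linarith [le_abs_self b, neg_abs_le a], ?_⟩
    have h1 := (Flo26.fl_of_curve hv (γ := fun s : ℝ => ((x + s : ℝ) : ℂ)) (T := T) fun s hs => ?_).2
    · simpa using h1
    rw [uIcc_of_le (by positivity)] at hs
    have h2 : ∀ᶠ u in 𝓝 s, |x + u| < χ.rIn := by
      refine ContinuousAt.eventually_lt (by fun_prop) continuousAt_const ?_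
      show |x + s| < 2 * T + 1
      rw [abs_lt]
      constructor <;> linarith [le_abs_self b, neg_abs_le a, hs.1, hs.2, abs_nonneg a, abs_nonneg b]
    filter_upwards [h2] with u hu
    have h3 : v ((x + u : ℝ) : ℂ) = (1 : ℂ) := by
      show ((χ _ : ℝ) : ℂ) = 1
      rw [χ.one_of_mem_closedBall (by rw [mem_closedBall_zero_iff, norm_real]; exact hu.le), ofReal_one]
    rw [h3]
    exact hasMFDerivAt_iff_hasFDerivAt.2 (((hasDerivAt_id u).const_add x).ofReal_comp).hasFDerivAt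
  · have h1 := Flo26.comp_fl_eq hv (hc (T, x)) (f := imCLM) (c := 0) fun s _ =>
      ⟨imCLM.contDiff.contMDiff.mdifferentiableAt one_ne_zero, by
        rw [mfderiv_eq_fderiv, imCLM.fderiv]; exact ofReal_im (χ (Flo26.fl v s x))⟩
    have h2 : Monotone fun s => (Flo26.fl v s (x : ℂ)).re := by
      have h3 : ∀ s, HasDerivAt (fun s => (Flo26.fl v s (x : ℂ)).re) (χ (Flo26.fl v s x)) s := fun s => by
        have := Flo26.hasDerivAt_comp_fl hv (hc (s, x)) (f := reCLM)
          (reCLM.contDiff.contMDiff.mdifferentiableAt one_ne_zero)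
        rw [mfderiv_eq_fderiv, reCLM.fderiv] at this
        exact this
      exact monotone_of_deriv_nonneg (fun s => (h3 s).differentiableAt) fun s => by
        rw [(h3 s).deriv]; exact χ.nonneg
    have h4 := h2 (show (0 : ℝ) ≤ T by positivity)
    simp only [Flo26.fl_zero hv, ofReal_re] at h4
    exact ⟨_, (not_le.1 hb).le.trans h4, Complex.ext (by simp) (by simpa using h1)⟩

variable {M : Type*} [TopologicalSpace M] [ChartedSpace ℂ M] [IsManifold IC ∞ M] [T2Space M]
  {o : Or M}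

/-- **SLIDE**: push a segment of a partial chart towards its right end -/
theorem slide {e : ℂ → M} {Ω : Set ℂ} (hΩ : IsOpen Ω) (he : ∀ z ∈ Ω, Pm oC o e z) (hi : InjOn e Ω)
    {a b' b : ℝ} (hab : a ≤ b') (hb : b' < b) (hs : ∀ t ∈ Icc a b, (t : ℂ) ∈ Ω) {F : Set M}
    (hF : IsClosed F) (hd : ∀ t ∈ Ico a b, e t ∉ F) :
    ∃ φ, Iso o φ ∧ NearI φ F ∧ ∀ t ∈ Icc a b, ∃ s ∈ Icc b' b, φ 1 (e t) = e s := by
  have hc : ContinuousOn e Ω := fun z hz => (he z hz).1.contMDiffAt.continuousAt.continuousWithinAt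
  have h1 : IsOpen (Ω ∩ e ⁻¹' Fᶜ) := hc.isOpen_inter_preimage hΩ hF.isOpen_compl
  obtain ⟨δ0, hδ0, h2⟩ := ((isCompact_Icc (a := a) (b := b')).image continuous_ofReal
    ).exists_thickening_subset_open h1 (by
      rintro _ ⟨t, ht, rfl⟩
      exact ⟨hs t ⟨ht.1, ht.2.trans hb.le⟩, hd t ⟨ht.1, ht.2.trans_lt hb⟩⟩)
  set δ := min (δ0 / 2) (b - b') with hδ
  have δp : 0 < δ := lt_min (half_pos hδ0) (by linarith)
  have d1 : δ ≤ δ0 / 2 := min_le_left _ _
  have d2 : δ ≤ b - b' := min_le_right _ _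
  obtain ⟨κ, hκ, k1, α, a1, a2, a3⟩ := exists_sq (a := a - δ) (b := b' + δ) (by linarith) δp
  have k2 : ∀ z, κ z ∈ Ω ∩ e ⁻¹' Fᶜ := fun z => by
    refine h2 (Metric.mem_thickening_iff.2 ⟨_, ⟨max a (min (κ z).re b'),
      ⟨le_max_left _ _, max_le hab (min_le_right _ _)⟩, rfl⟩, ?_⟩)
    rw [dist_eq_norm]
    refine (norm_le_abs_re_add_abs_im _).trans_lt ?_
    have b1 := (k1 z).1
    have b2 : |(κ z).re - max a (min (κ z).re b')| < δ := by
      rw [abs_lt]
      rcases le_total (κ z).re b' with h | h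
      · rw [min_eq_left h]
        rcases le_total a (κ z).re with h' | h'
        · rw [max_eq_right h']; constructor <;> linarith
        · rw [max_eq_left h']; constructor <;> linarith [b1.1]
      · rw [min_eq_right h, max_eq_right hab]; constructor <;> linarith [b1.2]
    simp only [sub_re, ofReal_re, sub_im, ofReal_im, sub_zero]
    linarith [(k1 z).2]
  have hE : St o (e ∘ κ) := ⟨fun z => (he _ (k2 z).1).comp (hκ.1 z),
    fun z w h => hκ.2 (hi (k2 z).1 (k2 w).1 h)⟩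
  obtain ⟨x0, hx0⟩ := a3 a ⟨by linarith, by linarith⟩
  obtain ⟨x1, hx1⟩ := a3 b' ⟨by linarith, by linarith⟩
  obtain ⟨ψ, hψ, ⟨L, hL, hL'⟩, h3⟩ := exists_shift x0 x1
  refine ⟨fun t => tr (e ∘ κ) (ψ t), hE.tr_iso hψ hL hL', hE.tr_nearI hL hL' (disjoint_left.2 ?_),
    fun t ht => ?_⟩
  · rintro _ ⟨z, -, rfl⟩
    exact (k2 z).2
  · by_cases h4 : t < b' + δ
    · obtain ⟨x, rfl⟩ := a3 t ⟨by linarith [ht.1], h4⟩
      obtain ⟨y, hy, h5⟩ := h3 x (a1.le_iff_le.1 (hx0 ▸ ht.1))
      have h6 := (k1 y).1.2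
      rw [a2, ofReal_re] at h6
      refine ⟨α y, ⟨hx1 ▸ a1.monotone hy, by linarith⟩, ?_⟩
      rw [← a2, ← a2, ← h5]
      exact hE.apply _ _
    · refine ⟨t, ⟨by linarith, ht.2⟩, (hE.wd _).out ?_⟩
      rintro ⟨z, hz⟩
      have h5 := (k1 z).1.2
      rw [hi (k2 z).1 (hs t ht) hz, ofReal_re] at h5
      exact h4 h5

end Crest.Agent.X212.Arc9
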